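import Vale.Agent.P080.Defs

/-!
The infinity Laplacian of a few test functions, and comparison with strict supersolutions.
-/

noncomputable section

open Filter Topology
open scoped RealInnerProductSpace

namespace Vale.Agent.P080

variable {E : Type*} [NormedAddCommGroup E] [InnerProductSpace ℝ E] [CompleteSpace E]

/-- Computing the infinity Laplacian from a gradient field near the point. -/
theorem infLap_eq {φ : E → ℝ} {z : E} {g : E → E} {M : E →L[ℝ] E}
    (h : ∀ᶠ x in 𝓝 z, HasFDerivAt φ (innerSL ℝ (g x)) x) (hg : HasFDerivAt g M z) :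
    infLap φ z = ⟪M (g z), g z⟫ := by
  have h1 : fderiv ℝ φ =ᶠ[𝓝 z] fun x => innerSL ℝ (g x) := h.mono fun x hx => hx.fderiv
  have h2 : HasFDerivAt (fun x => innerSL ℝ (g x)) ((innerSL ℝ : E →L[ℝ] E →L[ℝ] ℝ).comp M) z :=
    (innerSL ℝ : E →L[ℝ] E →L[ℝ] ℝ).hasFDerivAt.comp z hg
  have h3 : gradient φ z = g z := by
    refine ext_inner_right ℝ fun y => ?_
    rw [inner_gradient_left, h.self_of_nhds.fderiv, innerSL_apply_apply]
  rw [infLap, h3, h1.fderiv_eq, h2.fderiv]
  simp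

theorem infLap_neg (φ : E → ℝ) (z : E) : infLap (fun x => -φ x) z = -infLap φ z := by
  have h1 : fderiv ℝ (fun x => -φ x) = -fderiv ℝ φ := funext fun x => fderiv_fun_neg
  have h2 : gradient (fun x => -φ x) z = -gradient φ z := by
    simp [gradient, fderiv_fun_neg]
  simp [infLap, h1, h2, fderiv_neg]

theorem IsInfHarmonic.neg {u : E → ℝ} (hu : IsInfHarmonic u) :
    IsInfHarmonic fun x => -u x := by
  refine ⟨hu.1.neg, fun φ z hφ => ?_⟩
  have hn : infLap (fun x => -φ x) z = -infLap φ z := infLap_neg φ z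
  have h := hu.2 (fun x => -φ x) z hφ.neg
  constructor
  · intro hm
    have : IsLocalMin (fun x => u x - -φ x) z := by
      simpa [sub_eq_add_neg, neg_add_rev, add_comm] using hm.neg
    linarith [h.2 this]
  · intro hm
    have : IsLocalMax (fun x => u x - -φ x) z := by
      simpa [sub_eq_add_neg, neg_add_rev, add_comm] using hm.neg
    linarith [h.1 this]

/-- Comparison: a strict supersolution which lies above `u` outside the open part `U` of a compact
set `K` lies above `u` on `K`. -/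
theorem le_of_strict_super {u φ : E → ℝ} (hu : IsInfHarmonic u) {K U : Set E} (hK : IsCompact K)
    (hU : IsOpen U) (hUK : U ⊆ K) (hc : ContinuousOn φ K)
    (hb : ∀ x ∈ K, x ∉ U → u x ≤ φ x)
    (hs : ∀ x ∈ U, ContDiffAt ℝ 2 φ x ∧ infLap φ x < 0) : ∀ x ∈ K, u x ≤ φ x := by
  intro x hx
  obtain ⟨z, hz, hzmax⟩ := hK.exists_isMaxOn ⟨x, hx⟩ ((hu.1.continuousOn).sub hc)
  have hle : u x - φ x ≤ u z - φ z := hzmax hx
  by_cases hzU : z ∈ U
  · have : IsLocalMax (fun y => u y - φ y) z :=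
      hzmax.isLocalMax (mem_of_superset (hU.mem_nhds hzU) hUK)
    have := (hu.2 φ z (hs z hzU).1).1 this
    linarith [(hs z hzU).2]
  · linarith [hb z hz hzU]

/-- The quadratic test function `c + ⟪l, x⟫ + k ‖x‖² + c₂ ⟪e, x⟫²`. -/
theorem infLap_quad (c k c₂ : ℝ) (l e z : E) :
    ContDiffAt ℝ 2 (fun x => c + ⟪l, x⟫ + k * ‖x‖ ^ 2 + c₂ * ⟪e, x⟫ ^ 2) z ∧
      infLap (fun x => c + ⟪l, x⟫ + k * ‖x‖ ^ 2 + c₂ * ⟪e, x⟫ ^ 2) z =
        2 * k * ‖l + (2 * k) • z + (2 * c₂ * ⟪e, z⟫) • e‖ ^ 2 +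
          2 * c₂ * ⟪e, l + (2 * k) • z + (2 * c₂ * ⟪e, z⟫) • e⟫ ^ 2 := by
  refine ⟨?_, ?_⟩
  · exact (((contDiffAt_const.add (contDiffAt_const.inner ℝ contDiffAt_id)).add
      (contDiffAt_const.mul (contDiffAt_id.norm_sq ℝ))).add
      (contDiffAt_const.mul ((contDiffAt_const.inner ℝ contDiffAt_id).pow 2)))
  · have hg : HasFDerivAt (fun x => l + (2 * k) • x + (2 * c₂ * ⟪e, x⟫) • e)
        ((2 * k) • ContinuousLinearMap.id ℝ E + ((2 * c₂) • innerSL ℝ e).smulRight e) z := by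
      have := ((hasFDerivAt_id (𝕜 := ℝ) z).const_smul (2 * k)).const_add l |>.add
        ((((innerSL ℝ e).hasFDerivAt (x := z)).const_mul (2 * c₂)).smul_const e)
      exact this
    have hφ : ∀ x, HasFDerivAt (fun x => c + ⟪l, x⟫ + k * ‖x‖ ^ 2 + c₂ * ⟪e, x⟫ ^ 2)
        (innerSL ℝ (l + (2 * k) • x + (2 * c₂ * ⟪e, x⟫) • e)) x := by
      intro x
      have := ((((innerSL ℝ l).hasFDerivAt (x := x)).const_add c).add
        ((hasStrictFDerivAt_norm_sq x).hasFDerivAt.const_mul k)).add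
        ((((innerSL ℝ e).hasFDerivAt (x := x)).pow 2).const_mul c₂)
      refine this.congr_fderiv ?_
      refine ContinuousLinearMap.ext fun y => ?_
      simp
      ring
    rw [infLap_eq (Eventually.of_forall hφ) hg]
    generalize l + (2 * k) • z + (2 * c₂ * ⟪e, z⟫) • e = g
    rw [add_apply, inner_add_left, smul_apply, ContinuousLinearMap.id_apply,
      ContinuousLinearMap.smulRight_apply, smul_apply, innerSL_apply_apply, smul_eq_mul,
      real_inner_smul_left, real_inner_smul_left, real_inner_self_eq_norm_sq]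
    ring

/-- The test function `c + a ‖x - p‖ - μ ‖x - p‖²`. -/
theorem infLap_cone {c a μ : ℝ} {p z : E} (hz : z ≠ p) (hμ : 0 < μ)
    (ha : 2 * μ * ‖z - p‖ < a) :
    ContDiffAt ℝ 2 (fun x => c + a * ‖x - p‖ - μ * ‖x - p‖ ^ 2) z ∧
      infLap (fun x => c + a * ‖x - p‖ - μ * ‖x - p‖ ^ 2) z < 0 := by
  have hne : z - p ≠ 0 := sub_ne_zero.2 hz
  refine ⟨?_, ?_⟩
  · exact ((contDiffAt_const.add (contDiffAt_const.mul ((contDiffAt_id.sub contDiffAt_const).norm ℝ hne))).sub
      (contDiffAt_const.mul ((contDiffAt_id.sub contDiffAt_const).norm_sq ℝ)))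
  · set s : E → ℝ := fun x => a / Real.sqrt (‖x - p‖ ^ 2) - 2 * μ with hs
    have hev : ∀ᶠ x in 𝓝 z, x ≠ p := isOpen_ne.mem_nhds hz
    have hsq : ∀ x : E, x ≠ p → HasFDerivAt (fun y => Real.sqrt (‖y - p‖ ^ 2))
        ((1 / (2 * Real.sqrt (‖x - p‖ ^ 2))) • (2 • innerSL ℝ (x - p))) x := by
      intro x hx
      have h := (((hasFDerivAt_id (𝕜 := ℝ) x).sub_const p).norm_sq).sqrt
        (pow_ne_zero 2 (norm_ne_zero_iff.2 (sub_ne_zero.2 hx)))
      simpa using h
    have hsqrt : ∀ x : E, Real.sqrt (‖x - p‖ ^ 2) = ‖x - p‖ :=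
      fun x => Real.sqrt_sq (norm_nonneg _)
    have hφ : ∀ᶠ x in 𝓝 z, HasFDerivAt (fun x => c + a * ‖x - p‖ - μ * ‖x - p‖ ^ 2)
        (innerSL ℝ (s x • (x - p))) x := by
      filter_upwards [hev] with x hx
      have := (((hsq x hx).const_mul a).const_add c).sub
        ((((hasFDerivAt_id (𝕜 := ℝ) x).sub_const p).norm_sq).const_mul μ)
      simp only [hsqrt, id_eq] at this
      refine this.congr_fderiv ?_
      refine ContinuousLinearMap.ext fun y => ?_
      have : ‖x - p‖ ≠ 0 := norm_ne_zero_iff.2 (sub_ne_zero.2 hx)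
      simp [hs, hsqrt]
      field_simp
    have hsz : Real.sqrt (‖z - p‖ ^ 2) ≠ 0 := by rw [hsqrt]; exact norm_ne_zero_iff.2 hne
    have hds : HasFDerivAt s
        (a • ((-(Real.sqrt (‖z - p‖ ^ 2) ^ 2)⁻¹) •
          ((1 / (2 * Real.sqrt (‖z - p‖ ^ 2))) • (2 • innerSL ℝ (z - p))))) z := by
      have := (((hasDerivAt_inv hsz).comp_hasFDerivAt z (hsq z hz)).const_mul a).sub_const (2 * μ)
      simpa [hs, div_eq_mul_inv] using this
    have hg := hds.smul ((hasFDerivAt_id (𝕜 := ℝ) z).sub_const p)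
    rw [infLap_eq hφ hg]
    have hr : 0 < ‖z - p‖ := norm_pos_iff.2 hne
    have hspos : 0 < s z := by
      simp only [hs, hsqrt, sub_pos]
      rw [lt_div_iff₀ hr]
      linarith
    simp only [hsqrt, id_eq, one_div, mul_inv_rev, add_apply,
      smul_apply, ContinuousLinearMap.id_apply, ContinuousLinearMap.smulRight_apply,
      innerSL_apply_apply, smul_eq_mul, nsmul_eq_mul, inner_add_left, real_inner_smul_left,
      real_inner_smul_right, real_inner_self_eq_norm_sq]
    have key : s z = a / ‖z - p‖ - 2 * μ := by simp only [hs, hsqrt]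
    calc _ = s z ^ 2 * ‖z - p‖ ^ 2 * (-2 * μ) := by
          rw [key]; field_simp; ring
      _ < 0 := by
          have : 0 < s z ^ 2 * ‖z - p‖ ^ 2 := by positivity
          nlinarith

end Vale.Agent.P080
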