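import Vale.Agent.P080.Basic

/-!
For an entire infinity-harmonic function with Lipschitz constant `1`, write `v = u - ⟪e, ·⟫` with a
unit vector `e`. Then `v` decreases along `e`, and the drop of `v` on a segment is at most a fixed
fraction of its drop on a fixed multiple of that segment.
-/

noncomputable section

open Filter Topology
open scoped RealInnerProductSpace

namespace Vale.Agent.P080

variable {E : Type*} [NormedAddCommGroup E] [InnerProductSpace ℝ E] {u : E → ℝ} {e : E}

/-- The deviation from the linear function of slope `e`, along the line through `z`. -/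
def dev (u : E → ℝ) (e z : E) (t : ℝ) : ℝ := u (z + t • e) - (⟪e, z⟫ + t)

theorem dev_shift (he : ‖e‖ = 1) (z : E) (s t : ℝ) :
    dev u e (z + s • e) t = dev u e z (s + t) := by
  simp only [dev, inner_add_right, real_inner_smul_right, real_inner_self_eq_norm_sq, he]
  rw [add_assoc z, ← add_smul]
  ring

theorem norm_sq_split (he : ‖e‖ = 1) (x : E) :
    ‖x‖ ^ 2 = ⟪e, x⟫ ^ 2 + ‖x - ⟪e, x⟫ • e‖ ^ 2 := by
  simp only [norm_sub_sq_real, norm_smul, he, real_inner_smul_right, Real.norm_eq_abs,
    real_inner_comm e x]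
  rw [mul_one, sq_abs]
  ring

/-- The upper bound coming from the Lipschitz constant `1`. -/
theorem dev_le (he : ‖e‖ = 1) (hL : ∀ x y, u x ≤ u y + ‖x - y‖) (z x : E) {r : ℝ}
    (hr : r < ⟪e, x - z⟫) :
    u x - ⟪e, x⟫ ≤ dev u e z r +
      ‖(x - z) - ⟪e, x - z⟫ • e‖ ^ 2 / (2 * (⟪e, x - z⟫ - r)) := by
  set τ : ℝ := ⟪e, x - z⟫ - r with hτ
  set X : E := (x - z) - ⟪e, x - z⟫ • e with hX
  have hτ0 : 0 < τ := by linarith
  have hd : x - (z + r • e) = X + τ • e := by
    rw [hX, hτ, sub_smul]; abel
  have hXe : ⟪X, e⟫ = 0 := by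
    rw [hX, inner_sub_left, real_inner_smul_left, real_inner_self_eq_norm_sq, he,
      real_inner_comm]
    ring
  have hn : ‖x - (z + r • e)‖ ≤ τ + ‖X‖ ^ 2 / (2 * τ) := by
    have h2 : ‖x - (z + r • e)‖ ^ 2 = ‖X‖ ^ 2 + τ ^ 2 := by
      rw [hd, norm_add_sq_real, real_inner_smul_right, hXe, norm_smul, he, Real.norm_eq_abs,
        mul_one, sq_abs]
      ring
    have h3 : (τ + ‖X‖ ^ 2 / (2 * τ)) ^ 2 = ‖X‖ ^ 2 + τ ^ 2 + (‖X‖ ^ 2 / (2 * τ)) ^ 2 := by
      field_simp
      ring
    have h4 : 0 ≤ τ + ‖X‖ ^ 2 / (2 * τ) := by positivity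
    nlinarith [sq_nonneg (‖X‖ ^ 2 / (2 * τ)), norm_nonneg (x - (z + r • e))]
  have hx : ⟪e, x⟫ = ⟪e, z⟫ + r + τ := by
    rw [hτ, inner_sub_right]; ring
  simp only [dev]
  linarith [hL x (z + r • e)]

theorem dev_antitone (he : ‖e‖ = 1) (hL : ∀ x y, u x ≤ u y + ‖x - y‖) (z : E) :
    Antitone (dev u e z) := by
  intro r s hrs
  have := hL (z + s • e) (z + r • e)
  rw [add_sub_add_left_eq_sub, ← sub_smul, norm_smul, he, Real.norm_eq_abs,
    abs_of_nonneg (sub_nonneg.2 hrs), mul_one] at this
  simp only [dev]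
  linarith

theorem dev_sub_le (he : ‖e‖ = 1) (hL : ∀ x y, u x ≤ u y + ‖x - y‖) (z : E) {r s : ℝ}
    (hrs : r ≤ s) : dev u e z r - dev u e z s ≤ 2 * (s - r) := by
  have := hL (z + r • e) (z + s • e)
  rw [add_sub_add_left_eq_sub, ← sub_smul, norm_smul, he, Real.norm_eq_abs,
    abs_of_nonpos (sub_nonpos.2 hrs), mul_one] at this
  simp only [dev]
  linarith

variable [CompleteSpace E] [FiniteDimensional ℝ E]

/-- The Harnack inequality along the axis: a drop of `v` later on forces a drop at time `0`. -/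
theorem dev_harnack (hu : IsInfHarmonic u) (he : ‖e‖ = 1) (hL : ∀ x y, u x ≤ u y + ‖x - y‖)
    (z : E) {T : ℝ} (hT : 0 < T) :
    dev u e z 0 ≤ dev u e z (-(65 * T)) - (dev u e z (-(65 * T)) - dev u e z (T / 2)) / 4800 := by
  set a := dev u e z (-(65 * T)) with ha
  set b := dev u e z (T / 2) with hb
  set G := (a - b) / 600 with hG
  have hmono := dev_antitone he hL z
  have hab : b ≤ a := hmono (by linarith : -(65 * T) ≤ T / 2)
  have h0a : dev u e z 0 ≤ a := hmono (by linarith : -(65 * T) ≤ 0)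
  rcases eq_or_lt_of_le hab with hab' | hab'
  · linarith
  have hG0 : 0 < G := by rw [hG]; linarith
  have hGT : 4 * G ≤ T := by
    have := dev_sub_le he hL z (by linarith : -(65 * T) ≤ T / 2)
    rw [← ha, ← hb] at this
    rw [hG]; linarith
  -- the supersolution
  set k : ℝ := 1 / (16 * T) with hk
  set c₂ : ℝ := -(G / (4 * T ^ 2)) - k with hc₂
  set l : E := (1 - G / (2 * T)) • e with hl
  set φ : E → ℝ := fun w => (a + G / 8 + ⟪e, z⟫ - G / 4) + ⟪l, w⟫ + k * ‖w‖ ^ 2 + c₂ * ⟪e, w⟫ ^ 2
    with hφ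
  have hee : ⟪e, e⟫ = 1 := by rw [real_inner_self_eq_norm_sq, he]; norm_num
  have hφv : ∀ w, φ w - ⟪e, z⟫ - ⟪e, w⟫ =
      a + G / 8 + k * ‖w - ⟪e, w⟫ • e‖ ^ 2 - G * (⟪e, w⟫ + T) ^ 2 / (4 * T ^ 2) := by
    intro w
    rw [hφ, hl, hc₂]
    simp only [real_inner_smul_left]
    rw [norm_sq_split he w]
    field_simp
    ring
  -- translate so that `z` becomes the origin
  have hu' : IsInfHarmonic fun w => u (z + w) := by
    refine ⟨hu.1.comp (continuous_const.add continuous_id), fun ψ x hψ => ?_⟩
    have hψ' : ContDiffAt ℝ 2 (fun y => ψ (y - z)) (z + x) := by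
      refine ContDiffAt.comp (z + x) ?_ (contDiffAt_id.sub contDiffAt_const)
      simpa using hψ
    have hf : fderiv ℝ (fun y => ψ (y - z)) = fun y => fderiv ℝ ψ (y - z) :=
      funext fun y => fderiv_comp_sub z
    have hi : infLap (fun y => ψ (y - z)) (z + x) = infLap ψ x := by
      rw [infLap, infLap, hf, fderiv_comp_sub]
      simp [gradient, fderiv_comp_sub]
    have ht : Tendsto (fun y => y - z) (𝓝 (z + x)) (𝓝 x) :=
      (continuous_id.sub continuous_const).tendsto' _ _ (by simp)
    constructor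
    · intro hm
      rw [← hi]
      refine (hu.2 _ (z + x) hψ').1 ?_
      filter_upwards [ht.eventually hm] with y hy
      simpa using hy
    · intro hm
      rw [← hi]
      refine (hu.2 _ (z + x) hψ').2 ?_
      filter_upwards [ht.eventually hm] with y hy
      simpa using hy
  set K : Set E := {w | |⟪e, w⟫| ≤ T ∧ ‖w - ⟪e, w⟫ • e‖ ^ 2 ≤ 16 * G * T} with hK
  set U : Set E := {w | |⟪e, w⟫| < T ∧ ‖w - ⟪e, w⟫ • e‖ ^ 2 < 16 * G * T} with hU
  have hc1 : Continuous fun w : E => |⟪e, w⟫| := by fun_prop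
  have hc2 : Continuous fun w : E => ‖w - ⟪e, w⟫ • e‖ ^ 2 := by fun_prop
  have hKc : IsCompact K := by
    refine Metric.isCompact_of_isClosed_isBounded ?_ ?_
    · exact (isClosed_le hc1 continuous_const).inter (isClosed_le hc2 continuous_const)
    · refine isBounded_iff_forall_norm_le.2 ⟨Real.sqrt (T ^ 2 + 16 * G * T), fun w hw => ?_⟩
      refine Real.le_sqrt_of_sq_le ?_
      rw [norm_sq_split he w]
      have : ⟪e, w⟫ ^ 2 ≤ T ^ 2 := sq_le_sq' (abs_le.1 hw.1).1 (abs_le.1 hw.1).2
      linarith [hw.2]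
  have hUo : IsOpen U := (isOpen_lt hc1 continuous_const).inter (isOpen_lt hc2 continuous_const)
  have key : ∀ w ∈ K, u (z + w) ≤ φ w := by
    refine le_of_strict_super hu' hKc hUo (fun w hw => ⟨hw.1.le, hw.2.le⟩) (by fun_prop) ?_ ?_
    · intro w hw hwU
      set t : ℝ := ⟪e, w⟫ with ht
      set X : ℝ := ‖w - t • e‖ ^ 2 with hX
      have hX0 : 0 ≤ X := by positivity
      obtain ⟨htl, htr⟩ := abs_le.1 hw.1
      have hX1 : X ≤ 16 * G * T := hw.2
      have hv := hφv w
      rw [← ht, ← hX] at hv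
      have hux : ∀ r, r < t → u (z + w) - ⟪e, z⟫ - t ≤ dev u e z r + X / (2 * (t - r)) := by
        intro r hr
        have := dev_le he hL z (z + w) (r := r) (by simpa using hr)
        rw [add_sub_cancel_left, ← ht, ← hX, inner_add_right] at this
        linarith
      have hlow : u (z + w) - ⟪e, z⟫ - t ≤ a + G / 8 := by
        have h1 := hux (-(65 * T)) (by linarith)
        rw [← ha] at h1
        have h2 : X / (2 * (t - -(65 * T))) ≤ G / 8 := by
          rw [div_le_div_iff₀ (by linarith) (by norm_num)]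
          have : 0 ≤ G * (t + T) := mul_nonneg hG0.le (by linarith)
          nlinarith
        linarith
      have hk0 : 0 < k := by rw [hk]; positivity
      by_cases hside : X < 16 * G * T
      · have hta : |t| = T := by
          by_contra hne
          exact hwU ⟨lt_of_le_of_ne hw.1 hne, hside⟩
        rcases abs_choice t with h | h <;> rw [h] at hta
        · have h1 := hux (T / 2) (by linarith)
          rw [← hb] at h1
          have h2 : X / (2 * (t - T / 2)) ≤ 16 * G := by
            rw [div_le_iff₀ (by linarith), hta]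
            linarith
          have h3 : G * (t + T) ^ 2 / (4 * T ^ 2) = G := by rw [hta]; field_simp; ring
          have : 0 ≤ k * X := by positivity
          have : a = b + 600 * G := by rw [hG]; ring
          linarith
        · have h3 : G * (t + T) ^ 2 / (4 * T ^ 2) = 0 := by
            rw [show t + T = 0 by linarith]; simp
          have : 0 ≤ k * X := by positivity
          linarith
      · have hXe : k * X = G := by
          rw [le_antisymm hX1 (not_lt.1 hside), hk]; field_simp
        have h3 : G * (t + T) ^ 2 / (4 * T ^ 2) ≤ G := by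
          rw [div_le_iff₀ (by positivity)]
          refine mul_le_mul_of_nonneg_left ?_ hG0.le
          nlinarith
        linarith
    · intro w hw
      obtain ⟨hd, hinf⟩ := infLap_quad (a + G / 8 + ⟪e, z⟫ - G / 4) k c₂ l e w
      refine ⟨hd, ?_⟩
      rw [hφ, hinf]
      set t : ℝ := ⟪e, w⟫ with ht
      set P : ℝ := 1 - G * (t + T) / (2 * T ^ 2) with hP
      have hg : l + (2 * k) • w + (2 * c₂ * t) • e = P • e + (2 * k) • (w - t • e) := by
        rw [hl, smul_sub, smul_smul, hc₂, hP]
        match_scalars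
        · field_simp
          ring
        · ring
      have hperp : ⟪e, w - t • e⟫ = 0 := by
        rw [inner_sub_right, real_inner_smul_right, hee, ← ht]; ring
      rw [hg, norm_add_sq_real, inner_add_right, real_inner_smul_left, real_inner_smul_right,
        real_inner_smul_right, hperp, hee, norm_smul, norm_smul, he,
        Real.norm_eq_abs, Real.norm_eq_abs, mul_pow, mul_pow, sq_abs, sq_abs]
      obtain ⟨htl, htr⟩ := abs_lt.1 hw.1
      have hP1 : 3 / 4 ≤ P := by
        rw [hP, le_sub_comm, div_le_iff₀ (by positivity)]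
        nlinarith
      set X : ℝ := ‖w - t • e‖ ^ 2 with hX
      have hX1 : X < 16 * G * T := hw.2
      rw [hc₂, hk]
      field_simp
      nlinarith [mul_nonneg hG0.le (sub_nonneg.2 (mul_self_le_mul_self (by norm_num) hP1))]
  have h0 := key 0 ⟨by simp [hT.le], by simp; positivity⟩
  have h1 := hφv 0
  simp only [add_zero, inner_zero_right, sub_zero, zero_smul, norm_zero, zero_add] at h0 h1
  have h2 : G * T ^ 2 / (4 * T ^ 2) = G / 4 := by field_simp
  rw [h2] at h1
  have h3 : dev u e z 0 = u z - ⟪e, z⟫ := by simp [dev]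
  rw [h3, hG] at *
  linarith

end Vale.Agent.P080
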