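import Mathlib

/-!
Infinity-harmonic functions in the viscosity sense.
-/

noncomputable section

namespace Vale.Agent.P080

variable {E : Type*} [NormedAddCommGroup E] [InnerProductSpace ℝ E] [CompleteSpace E]

/-- The infinity Laplacian `⟨D²φ ∇φ, ∇φ⟩`. -/
def infLap (φ : E → ℝ) (x : E) : ℝ :=
  fderiv ℝ (fderiv ℝ φ) x (gradient φ x) (gradient φ x)

/-- Continuous viscosity solutions of `⟨D²u ∇u, ∇u⟩ = 0` on the whole space: every test function
which is `C²` near the contact point is used, including those with vanishing gradient. -/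
def IsInfHarmonic (u : E → ℝ) : Prop :=
  Continuous u ∧ ∀ (φ : E → ℝ) (z : E), ContDiffAt ℝ 2 φ z →
    (IsLocalMax (fun x => u x - φ x) z → 0 ≤ infLap φ z) ∧
    (IsLocalMin (fun x => u x - φ x) z → infLap φ z ≤ 0)

end Vale.Agent.P080
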