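import Vale.Agent.P080.Decay

/-!
An entire infinity-harmonic function which is at least an affine function minus a small power of
the distance is affine.
-/

noncomputable section

open Filter Topology
open scoped RealInnerProductSpace

namespace Vale.Agent.P080

variable {E : Type*} [NormedAddCommGroup E] [InnerProductSpace ℝ E] [CompleteSpace E]
  [FiniteDimensional ℝ E] {u : E → ℝ}

omit [FiniteDimensional ℝ E] in
theorem IsInfHarmonic.const_mul (hu : IsInfHarmonic u) {c : ℝ} (hc : 0 < c) :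
    IsInfHarmonic fun x => c * u x := by
  refine ⟨continuous_const.mul hu.1, fun φ z hφ => ?_⟩
  have hev : ∀ᶠ x in 𝓝 z, DifferentiableAt ℝ φ x :=
    (hφ.eventually (by simp)).mono fun x hx => hx.differentiableAt (by simp)
  have h1 : fderiv ℝ (fun x => c⁻¹ * φ x) =ᶠ[𝓝 z] fun x => c⁻¹ • fderiv ℝ φ x :=
    hev.mono fun x hx => fderiv_const_mul hx c⁻¹
  have h2 : DifferentiableAt ℝ (fderiv ℝ φ) z :=
    (hφ.fderiv_right (m := 1) (by norm_num)).differentiableAt (by norm_num)
  have h3 : gradient (fun x => c⁻¹ * φ x) z = c⁻¹ • gradient φ z := by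
    simp [gradient, fderiv_const_mul hev.self_of_nhds c⁻¹]
  have hi : infLap (fun x => c⁻¹ * φ x) z = c⁻¹ ^ 3 * infLap φ z := by
    rw [infLap, infLap, h1.fderiv_eq, fderiv_fun_const_smul h2, h3]
    simp
    ring
  have key : ∀ x, c⁻¹ * (c * u x - φ x) = u x - c⁻¹ * φ x := fun x => by field_simp
  have hd : ContDiffAt ℝ 2 (fun x => c⁻¹ * φ x) z := contDiffAt_const.mul hφ
  have hc3 : 0 < c⁻¹ ^ 3 := by positivity
  constructor
  · intro hm
    have := (hu.2 _ z hd).1 (by
      filter_upwards [hm] with y hy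
      have := mul_le_mul_of_nonneg_left hy (inv_nonneg.2 hc.le)
      rwa [key, key] at this)
    rw [hi] at this
    exact nonneg_of_mul_nonneg_right this hc3
  · intro hm
    have := (hu.2 _ z hd).2 (by
      filter_upwards [hm] with y hy
      have := mul_le_mul_of_nonneg_left hy (inv_nonneg.2 hc.le)
      rwa [key, key] at this)
    rw [hi] at this
    exact nonpos_of_mul_nonpos_right this hc3

theorem rpow_le_linear {β : ℝ} (hβ : β < 1) {δ : ℝ} (hδ : 0 < δ) :
    ∀ᶠ t : ℝ in atTop, t ^ β ≤ δ * t := by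
  have h := (tendsto_rpow_neg_atTop (sub_pos.2 hβ)).eventually (eventually_le_nhds hδ)
  filter_upwards [h, eventually_gt_atTop (0 : ℝ)] with t ht ht0
  rw [neg_sub] at ht
  calc t ^ β = t ^ (β - 1) * t := by rw [Real.rpow_sub_one ht0.ne']; field_simp
    _ ≤ δ * t := mul_le_mul_of_nonneg_right ht ht0.le

/-- A lower bound by an affine function of slope `p`, up to a sublinear error, gives the Lipschitz
constant `‖p‖`. -/
theorem lipschitz_of_lower (hu : IsInfHarmonic u) {β C : ℝ} (hβ0 : 0 ≤ β) (hβ : β < 1) (hC : 0 ≤ C) {p : E}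
    (h : ∀ x, ⟪p, x⟫ - C * (1 + ‖x‖) ^ β ≤ u x) (x y : E) : u x ≤ u y + ‖p‖ * ‖x - y‖ := by
  refine le_of_forall_pos_le_add fun ε' hε' => ?_
  set ε := ε' / (1 + ‖x - y‖) with hεd
  have hε : 0 < ε := by rw [hεd]; positivity
  have ht : Tendsto (fun R : ℝ => (1 + ‖x‖) + R) atTop atTop :=
    tendsto_atTop_add_const_left _ _ tendsto_id
  obtain ⟨R, hRp, hRy, hR0, hRb⟩ := ((ht.eventually (rpow_le_linear hβ
      (δ := ε / (4 * (C + 1))) (by positivity))).and ((eventually_gt_atTop ‖x - y‖).and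
    ((eventually_gt_atTop (0 : ℝ)).and
      (eventually_ge_atTop ((u x - ⟪p, x⟫ + ε / 4 * (1 + ‖x‖)) * (2 / ε)))))).exists
  set a := ‖p‖ + ε with ha
  set μ := ε / (4 * R) with hμ
  have hμR : μ * R = ε / 4 := by rw [hμ]; field_simp
  have hp := norm_nonneg p
  have key := le_of_strict_super hu.neg (isCompact_closedBall x R)
    (U := Metric.ball x R ∩ {q | q ≠ x}) (Metric.isOpen_ball.inter isOpen_ne) (fun q hq => Metric.ball_subset_closedBall hq.1)
    (φ := fun q => -u x + a * ‖q - x‖ - μ * ‖q - x‖ ^ 2) (by fun_prop) ?_ ?_ y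
    (by rw [Metric.mem_closedBall, dist_eq_norm, norm_sub_rev]; exact hRy.le)
  · have h2 : 0 ≤ μ * ‖y - x‖ ^ 2 := by positivity
    have h3 : ε * ‖x - y‖ ≤ ε' := by
      rw [hεd, div_mul_eq_mul_div, div_le_iff₀ (by positivity)]
      nlinarith [norm_nonneg (x - y)]
    rw [norm_sub_rev y x, ha] at key
    nlinarith
  · intro q hq hqU
    by_cases hqx : q = x
    · simp [hqx]
    have hR : ‖q - x‖ = R := by
      rw [Metric.mem_closedBall, dist_eq_norm] at hq
      refine le_antisymm hq (not_lt.1 fun hlt => hqU ⟨?_, hqx⟩)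
      rwa [Metric.mem_ball, dist_eq_norm]
    simp only [hR]
    have h1 : ⟪p, x⟫ - ⟪p, q⟫ ≤ ‖p‖ * R := by
      rw [← inner_sub_right, ← hR, norm_sub_rev q x]
      exact real_inner_le_norm _ _
    have h2 : C * (1 + ‖q‖) ^ β ≤ ε / 4 * (1 + ‖x‖ + R) := by
      have h4 : (1 + ‖q‖) ^ β ≤ (1 + ‖x‖ + R) ^ β := by
        refine Real.rpow_le_rpow (by positivity) ?_ hβ0
        linarith [norm_le_insert' q x]
      calc C * (1 + ‖q‖) ^ β ≤ (C + 1) * (ε / (4 * (C + 1)) * (1 + ‖x‖ + R)) :=
            mul_le_mul (by linarith) (h4.trans hRp) (by positivity) (by linarith)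
        _ = ε / 4 * (1 + ‖x‖ + R) := by field_simp
    have h3 : u x - ⟪p, x⟫ + ε / 4 * (1 + ‖x‖) ≤ ε / 2 * R := by
      have := mul_le_mul_of_nonneg_left hRb (by positivity : 0 ≤ ε / 2)
      have e1 : ε / 2 * ((u x - ⟪p, x⟫ + ε / 4 * (1 + ‖x‖)) * (2 / ε)) =
          u x - ⟪p, x⟫ + ε / 4 * (1 + ‖x‖) := by field_simp
      linarith
    nlinarith [h q]
  · intro q hq
    refine infLap_cone hq.2 (by positivity) ?_
    have : ‖q - x‖ < R := by simpa [dist_eq_norm] using hq.1
    nlinarith [show 0 < μ by rw [hμ]; positivity]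

/-- The exponent in the Liouville theorem. -/
def expo : ℝ := 1 / 40000

theorem expo_bounds : 0 < expo ∧ expo < 1 ∧ (1 - 1 / 4800 : ℝ) * (261 : ℝ) ^ expo < 1 := by
  refine ⟨by norm_num [expo], by norm_num [expo], ?_⟩
  have h0 : (261 : ℝ) ≤ Real.exp 6 := by
    have h1 : Real.exp 6 = Real.exp 1 ^ 6 := by rw [← Real.exp_nat_mul]; norm_num
    rw [h1]
    exact le_trans (by norm_num) (pow_le_pow_left₀ (by norm_num) Real.exp_one_gt_d9.le 6)
  calc (1 - 1 / 4800 : ℝ) * (261 : ℝ) ^ expo
      ≤ Real.exp (-(1 / 4800)) * Real.exp 6 ^ expo := by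
        refine mul_le_mul ?_ (Real.rpow_le_rpow (by norm_num) h0 (by norm_num [expo]))
          (by positivity) (Real.exp_pos _).le
        linarith [Real.add_one_le_exp (-(1 / 4800 : ℝ))]
    _ = Real.exp (-(1 / 4800) + 6 * expo) := by rw [← Real.exp_mul, ← Real.exp_add]
    _ < 1 := Real.exp_lt_one_iff.2 (by norm_num [expo])

theorem affine_of_lower_unit (hu : IsInfHarmonic u) {e : E} (he : ‖e‖ = 1) {C : ℝ} (hC : 0 ≤ C)
    (h : ∀ x, ⟪e, x⟫ - C * (1 + ‖x‖) ^ expo ≤ u x) (x : E) : u x = u 0 + ⟪e, x⟫ := by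
  obtain ⟨hb0, hb1, hq⟩ := expo_bounds
  have hL : ∀ x y, u x ≤ u y + ‖x - y‖ := fun x y => by
    simpa [he] using lipschitz_of_lower hu hb0.le hb1 hC h x y
  have hL' : ∀ x y, -u x ≤ -u y + ‖x - y‖ := fun x y => by
    linarith [hL y x, norm_sub_rev x y]
  have hconst : ∀ z t, dev u e z t = dev u e z 0 := by
    intro z
    set d := dev u e z with hd
    have hm : Antitone d := dev_antitone he hL z
    have hlow : ∀ s ≥ 0, -(C * (1 + ‖z‖ + s) ^ expo) ≤ d s := by
      intro s hs
      have h1 := h (z + s • e)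
      have h2 : (1 + ‖z + s • e‖) ^ expo ≤ (1 + ‖z‖ + s) ^ expo := by
        refine Real.rpow_le_rpow (by positivity) ?_ hb0.le
        have := norm_add_le z (s • e)
        rw [norm_smul, he, Real.norm_eq_abs, abs_of_nonneg hs] at this
        linarith
      have h3 : ⟪e, z + s • e⟫ = ⟪e, z⟫ + s := by
        simp [inner_add_right, real_inner_smul_right, he]
      have := mul_le_mul_of_nonneg_left h2 hC
      simp only [hd, dev]
      linarith
    -- the drop of a segment is controlled by a power of its length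
    set A := 4800 * (|d 0| + C) with hA
    have hgrow : ∀ s > 0, d (-s) - d s ≤ A * (1 + ‖z‖ + 130 * s) ^ expo := by
      intro s hs
      have hev : ∀ t, dev (fun x => -u x) (-e) z t = -d (-t) := by
        intro t
        simp [hd, dev, smul_neg, ← sub_eq_add_neg, inner_neg_left]
        ring
      have := dev_harnack hu.neg (e := -e) (by simpa using he) hL' z (T := 2 * s) (by linarith)
      rw [hev, hev, hev, neg_zero, show -(2 * s / 2) = -s by ring,
        show - -(65 * (2 * s)) = 130 * s by ring] at this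
      have h1 := hlow (130 * s) (by linarith)
      have h2 : d (130 * s) ≤ d s := hm (by linarith)
      have h3 : 1 ≤ (1 + ‖z‖ + 130 * s) ^ expo :=
        Real.one_le_rpow (by linarith [norm_nonneg z]) hb0.le
      have h4 : |d 0| ≤ |d 0| * (1 + ‖z‖ + 130 * s) ^ expo :=
        le_mul_of_one_le_right (abs_nonneg _) h3
      rw [hA]
      linarith [le_abs_self (d 0)]
    have hstep : ∀ s > 0, d (-s) - d s ≤
        (1 - 1 / 4800) * (d (-(261 * s)) - d (261 * s)) := by
      intro s hs
      have := dev_harnack hu he hL (z + (-s) • e) (T := 4 * s) (by linarith)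
      rw [dev_shift he, dev_shift he, dev_shift he, ← hd, add_zero,
        show -s + -(65 * (4 * s)) = -(261 * s) by ring, show -s + 4 * s / 2 = s by ring] at this
      have h2 : d (261 * s) ≤ d s := hm (by linarith)
      linarith
    have hiter : ∀ m : ℕ, ∀ s > 0, d (-s) - d s ≤
        (1 - 1 / 4800) ^ m * (d (-(261 ^ m * s)) - d (261 ^ m * s)) := by
      intro m
      induction m with
      | zero => intro s hs; simp
      | succ m ih =>
        intro s hs
        refine (ih s hs).trans ?_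
        rw [pow_succ, mul_assoc, pow_succ', mul_assoc]
        exact mul_le_mul_of_nonneg_left (hstep _ (by positivity)) (by positivity)
    have hzero : ∀ s > 0, d (-s) ≤ d s := by
      intro s hs
      set B := 1 + ‖z‖ + 130 * s with hB
      set q := (1 - 1 / 4800 : ℝ) * (261 : ℝ) ^ expo with hq'
      have hlim : Tendsto (fun m : ℕ => A * B ^ expo * q ^ m) atTop (𝓝 0) := by
        have := (tendsto_pow_atTop_nhds_zero_of_lt_one
          (show 0 ≤ q by positivity) hq).const_mul (A * B ^ expo)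
        simpa using this
      refine sub_nonpos.1 (ge_of_tendsto' hlim fun m => (hiter m s hs).trans ?_)
      have h261 : (1 : ℝ) ≤ 261 ^ m := one_le_pow₀ (by norm_num)
      have hA0 : 0 ≤ A := by positivity
      calc (1 - 1 / 4800 : ℝ) ^ m * (d (-(261 ^ m * s)) - d (261 ^ m * s))
          ≤ (1 - 1 / 4800) ^ m * (A * (1 + ‖z‖ + 130 * (261 ^ m * s)) ^ expo) :=
            mul_le_mul_of_nonneg_left (hgrow _ (by positivity)) (by positivity)
        _ ≤ (1 - 1 / 4800) ^ m * (A * (B * 261 ^ m) ^ expo) := by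
            gcongr
            rw [hB]
            nlinarith [norm_nonneg z]
        _ = A * B ^ expo * q ^ m := by
            rw [hq', mul_pow, Real.mul_rpow (by positivity) (by positivity),
              Real.rpow_pow_comm (by norm_num)]
            ring
    intro t
    have hs := hzero (|t| + 1) (by positivity)
    have h1 := abs_le.1 (le_refl |t|)
    have i1 : d t ≤ d (-(|t| + 1)) := hm (by linarith)
    have i2 : d (|t| + 1) ≤ d t := hm (by linarith)
    have i3 : d 0 ≤ d (-(|t| + 1)) := hm (by linarith [abs_nonneg t])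
    have i4 : d (|t| + 1) ≤ d 0 := hm (by linarith [abs_nonneg t])
    linarith
  have hle : ∀ z x, u x - ⟪e, x⟫ ≤ u z - ⟪e, z⟫ := by
    intro z x
    refine le_of_forall_pos_le_add fun ε hε => ?_
    set X := ‖(x - z) - ⟪e, x - z⟫ • e‖ ^ 2 with hX
    have hX0 : 0 ≤ X := by positivity
    have hd : 0 < X / (2 * ε) + 1 := by positivity
    have := dev_le he hL z x (r := ⟪e, x - z⟫ - (X / (2 * ε) + 1)) (by linarith)
    rw [hconst, sub_sub_cancel, ← hX] at this
    have h2 : X / (2 * (X / (2 * ε) + 1)) ≤ ε := by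
      rw [div_le_iff₀ (by positivity)]
      have : ε * (2 * (X / (2 * ε) + 1)) = X + 2 * ε := by field_simp
      linarith
    have h3 : dev u e z 0 = u z - ⟪e, z⟫ := by simp [dev]
    linarith
  have h1 := hle 0 x
  have h2 := hle x 0
  simp only [inner_zero_right] at h1 h2
  linarith

theorem affine_of_lower (hu : IsInfHarmonic u) {p : E} {C : ℝ}
    (h : ∀ x, ⟪p, x⟫ - C * (1 + ‖x‖) ^ expo ≤ u x) (x : E) : u x = u 0 + ⟪p, x⟫ := by
  have h' : ∀ x, ⟪p, x⟫ - max C 0 * (1 + ‖x‖) ^ expo ≤ u x := fun x => by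
    have : C * (1 + ‖x‖) ^ expo ≤ max C 0 * (1 + ‖x‖) ^ expo :=
      mul_le_mul_of_nonneg_right (le_max_left _ _) (by positivity)
    linarith [h x]
  rcases eq_or_ne p 0 with rfl | hp
  · have hL := lipschitz_of_lower hu expo_bounds.1.le expo_bounds.2.1 (le_max_right _ _) h'
    simp only [norm_zero, zero_mul, add_zero] at hL
    simp [le_antisymm (hL x 0) (hL 0 x)]
  have hn : 0 < ‖p‖ := norm_pos_iff.2 hp
  have := affine_of_lower_unit (hu.const_mul (inv_pos.2 hn)) (e := ‖p‖⁻¹ • p)
    (norm_smul_inv_norm hp) (C := ‖p‖⁻¹ * max C 0) (by positivity) (fun y => ?_) x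
  · rw [real_inner_smul_left, ← mul_add] at this
    exact mul_left_cancel₀ (inv_ne_zero hn.ne') this
  · rw [real_inner_smul_left, mul_assoc, ← mul_sub]
    exact mul_le_mul_of_nonneg_left (h' y) (inv_nonneg.2 hn.le)

/-- Both one-sided forms. -/
theorem affine_of_one_sided (hu : IsInfHarmonic u) {p : E} {C : ℝ}
    (h : (∀ x, ⟪p, x⟫ - C * (1 + ‖x‖) ^ expo ≤ u x) ∨
      ∀ x, u x ≤ ⟪p, x⟫ + C * (1 + ‖x‖) ^ expo) (x : E) : u x = u 0 + ⟪p, x⟫ := by
  rcases h with h | h
  · exact affine_of_lower hu h x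
  · have := affine_of_lower hu.neg (p := -p) (C := C)
      (fun y => by rw [inner_neg_left]; linarith [h y]) x
    rw [inner_neg_left] at this
    linarith

end Vale.Agent.P080
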